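import Vale.Agent.P277.A.SmDefs
import Vale.Agent.P277.A.Dim
import Mathlib.Analysis.Calculus.FDeriv.Analytic
import Mathlib.Analysis.Calculus.ContDiff.RCLike

/-!
# P277, package F1: general position for pairs of smooth sections
-/

open scoped Manifold ContDiff Topology
open Vale.Agent.P272.K Vale.Agent.P285.H281.FD Set Filter

noncomputable section

namespace Vale.Agent.P277.GPos

variable {X : CSp}

/-- A smooth function composed with a holomorphic map is smooth. -/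
theorem contDiffAt_of_sm {d : ℕ} {f : X.pt → ℂ} {g : Cm d → X.pt} {p : Cm d} (hg : HolAt X g p)
    (hf : Sm X f (g p)) : ContDiffAt ℝ ∞ (fun q => f (g q)) p := by
  obtain ⟨M, φ, G, h1, h2, h3⟩ := hf
  have h4 : (fun q => f (g q)) =ᶠ[𝓝 p] fun q => G (fun a => φ a (g q)) := hg.1.eventually h3
  refine ContDiffAt.congr_of_eventuallyEq ?_ h4
  have h5 : ContDiffAt ℝ ∞ (fun q => fun a => φ a (g q)) p := by
    rw [contDiffAt_pi]
    intro a
    exact ((hg.2 _ (h1 a)).restrictScalars (𝕜 := ℝ)).contDiffAt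
  exact h2.self_of_nhds.comp p h5

theorem contDiffAt_insertNth {E : Type*} [NormedAddCommGroup E] [NormedSpace ℝ E] {M : ℕ}
    (m : Fin (M + 1)) {c : E → ℂ} {a : E → Fin M → ℂ} {x : E} {n : WithTop ℕ∞}
    (hc : ContDiffAt ℝ n c x) (ha : ContDiffAt ℝ n a x) :
    ContDiffAt ℝ n (fun y => (m.insertNth (c y) (a y) : Fin (M + 1) → ℂ)) x := by
  rw [contDiffAt_pi]
  intro l
  rcases Fin.eq_self_or_eq_succAbove m l with rfl | ⟨j, rfl⟩
  · simpa using hc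
  · simp only [Fin.insertNth_apply_succAbove]
    exact (contDiffAt_pi.1 ha) j

/-- the parameter space -/
abbrev Par (M : ℕ) : Type := Cm 1 × (Fin M → ℂ) × (Fin M → ℂ)

theorem finrank_par (M : ℕ) : Module.finrank ℝ (Par M) = 2 + (2 * M + 2 * M) := by
  simp [Module.finrank_pi_fintype, Complex.finrank_real_complex]
  ring

theorem finrank_two (M : ℕ) :
    Module.finrank ℝ ((Fin (M + 1) → ℂ) × (Fin (M + 1) → ℂ)) = 2 * (M + 1) + 2 * (M + 1) := by
  simp [Module.finrank_pi_fintype, Complex.finrank_real_complex]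
  ring

/-- the value of the `m`-th coefficient which makes the section vanish -/
def sol {T : Type} (f χ : T → ℂ) {M : ℕ} (v : Fin (M + 1) → T → ℂ) (m : Fin (M + 1)) (x : T)
    (a : Fin M → ℂ) : ℂ := -(f x + χ x * ∑ l, a l * v (m.succAbove l) x) / (χ x * v m x)

theorem eq_sol {T : Type} {f χ : T → ℂ} {M : ℕ} {v : Fin (M + 1) → T → ℂ} {m : Fin (M + 1)} {x : T}
    (hχ : χ x ≠ 0) (hv : v m x ≠ 0) {w : Fin (M + 1) → ℂ} (h : f x + χ x * ∑ l, w l * v l x = 0) :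
    m.insertNth (sol f χ v m x (m.removeNth w)) (m.removeNth w) = w := by
  have h1 : sol f χ v m x (m.removeNth w) = w m := by
    unfold sol
    rw [Fin.sum_univ_succAbove _ m] at h
    rw [div_eq_iff (mul_ne_zero hχ hv)]
    simp only [Fin.removeNth]
    linear_combination -h
  rw [h1]
  exact Fin.insertNth_self_removeNth m w

/-- One piece of the bad set is small. -/
theorem dimH_piece {M : ℕ} (m : Fin (M + 1)) (D : Set (Cm 1)) (f f' χ : Cm 1 → ℂ)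
    (v : Fin (M + 1) → Cm 1 → ℂ) (hf : ∀ p ∈ D, ContDiffAt ℝ ∞ f p)
    (hf' : ∀ p ∈ D, ContDiffAt ℝ ∞ f' p) (hχ : ∀ p ∈ D, ContDiffAt ℝ ∞ χ p)
    (hv : ∀ l, ∀ p ∈ D, ContDiffAt ℝ ∞ (v l) p) (hχ0 : ∀ p ∈ D, χ p ≠ 0)
    (hv0 : ∀ p ∈ D, v m p ≠ 0) :
    dimH {w : (Fin (M + 1) → ℂ) × (Fin (M + 1) → ℂ) | ∃ p ∈ D,
      f p + χ p * ∑ l, w.1 l * v l p = 0 ∧ f' p + χ p * ∑ l, w.2 l * v l p = 0} ≤
      (2 + (2 * M + 2 * M) : ℕ) := by
  set Φ : Par M → (Fin (M + 1) → ℂ) × (Fin (M + 1) → ℂ) := fun q =>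
    (m.insertNth (sol f χ v m q.1 q.2.1) q.2.1, m.insertNth (sol f' χ v m q.1 q.2.2) q.2.2)
  set D' : Set (Par M) := {q | q.1 ∈ D}
  have h1 : {w : (Fin (M + 1) → ℂ) × (Fin (M + 1) → ℂ) | ∃ p ∈ D,
      f p + χ p * ∑ l, w.1 l * v l p = 0 ∧ f' p + χ p * ∑ l, w.2 l * v l p = 0} ⊆ Φ '' D' := by
    rintro w ⟨p, hp, hw1, hw2⟩
    refine ⟨(p, m.removeNth w.1, m.removeNth w.2), hp, ?_⟩
    exact Prod.ext (eq_sol (hχ0 p hp) (hv0 p hp) hw1) (eq_sol (hχ0 p hp) (hv0 p hp) hw2)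
  have h2 : ∀ q ∈ D', ContDiffAt ℝ 1 Φ q := by
    intro q hq
    have hq' : q.1 ∈ D := hq
    have c1 : ContDiffAt ℝ 1 (fun q : Par M => q.1) q := contDiffAt_fst
    have cf : ContDiffAt ℝ 1 (fun q : Par M => f q.1) q :=
      (((hf _ hq').of_le (by simp)).comp q c1 :)
    have cf' : ContDiffAt ℝ 1 (fun q : Par M => f' q.1) q :=
      (((hf' _ hq').of_le (by simp)).comp q c1 :)
    have cχ : ContDiffAt ℝ 1 (fun q : Par M => χ q.1) q :=
      (((hχ _ hq').of_le (by simp)).comp q c1 :)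
    have cv : ∀ l, ContDiffAt ℝ 1 (fun q : Par M => v l q.1) q := fun l =>
      (((hv l _ hq').of_le (by simp)).comp q c1 :)
    have ca : ContDiffAt ℝ 1 (fun q : Par M => q.2.1) q := contDiffAt_snd.fst
    have ca' : ContDiffAt ℝ 1 (fun q : Par M => q.2.2) q := contDiffAt_snd.snd
    have key : ∀ (F : Cm 1 → ℂ) (A : Par M → Fin M → ℂ),
        ContDiffAt ℝ 1 (fun q : Par M => F q.1) q → ContDiffAt ℝ 1 A q →
        ContDiffAt ℝ 1 (fun q : Par M => sol F χ v m q.1 (A q)) q := by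
      intro F A hF hA
      unfold sol
      simp only [div_eq_mul_inv]
      refine ContDiffAt.mul ?_ ((cχ.mul (cv m)).inv (mul_ne_zero (hχ0 _ hq') (hv0 _ hq')))
      refine (hF.add (cχ.mul ?_)).neg
      exact ContDiffAt.sum fun l _ => ((contDiffAt_pi.1 hA) l).mul (cv _)
    exact (contDiffAt_insertNth m (key f _ cf ca) ca).prodMk
      (contDiffAt_insertNth m (key f' _ cf' ca') ca')
  calc _ ≤ dimH (Φ '' D') := dimH_mono h1
    _ ≤ dimH D' := by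
      refine dimH_image_le_of_locally_lipschitzOn fun q hq => ?_
      obtain ⟨K, t, ht, hL⟩ := (h2 q hq).exists_lipschitzOnWith
      exact ⟨K, t, mem_nhdsWithin_of_mem_nhds ht, hL⟩
    _ ≤ dimH (univ : Set (Par M)) := dimH_mono (subset_univ _)
    _ = _ := by rw [Real.dimH_univ_eq_finrank, finrank_par]

end Vale.Agent.P277.GPos

namespace Vale.Agent.P277

open GPos

/-- **General position.** -/
theorem general_position {X : CSp} {P : Bd X.pt} (hP : IsLBx X P) {W S : Set X.pt}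
    (hS : DimLe X 1 S) (hSW : S ⊆ W) {b b' : P.ι → X.pt → ℂ} (hb : IsSmSec X W P b)
    (hb' : IsSmSec X W P b') {χ : X.pt → ℂ} (hχ : ∀ x ∈ W, Sm X χ x) {M : ℕ}
    {u : Fin M → P.ι → X.pt → ℂ} (hu : ∀ m, IsSmSec X W P (u m))
    (hu0 : ∀ x ∈ W, ∀ i, x ∈ P.U i → ∃ m, u m i x ≠ 0)
    (h0 : ∀ x ∈ S, χ x = 0 → ∀ i, x ∈ P.U i → b i x ≠ 0 ∨ b' i x ≠ 0) :
    ∃ w w' : Fin M → ℂ, ∀ x ∈ S, ∀ i, x ∈ P.U i →
      b i x + χ x * ∑ m, w m * u m i x ≠ 0 ∨ b' i x + χ x * ∑ m, w' m * u m i x ≠ 0 := by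
  classical
  obtain ⟨t, ht⟩ := isCompact_univ.elim_finite_subcover P.U hP.isOpen
    (fun x _ => mem_iUnion.2 (hP.cover x))
  rcases M with _ | M
  · refine ⟨0, 0, fun x hx i hi => ?_⟩
    obtain ⟨m, -⟩ := hu0 x (hSW hx) i hi
    exact m.elim0
  obtain ⟨Ω, g, hΩ, hg, hSg⟩ := hS
  set D : ℕ → P.ι → Fin (M + 1) → Set (Cm 1) := fun k i m =>
    {p | p ∈ Ω k ∧ g k p ∈ W ∧ g k p ∈ P.U i ∧ χ (g k p) ≠ 0 ∧ u m i (g k p) ≠ 0}
  set Bad : ℕ → P.ι → Fin (M + 1) → Set ((Fin (M + 1) → ℂ) × (Fin (M + 1) → ℂ)) := fun k i m =>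
    {w | ∃ p ∈ D k i m, b i (g k p) + χ (g k p) * ∑ l, w.1 l * u l i (g k p) = 0 ∧
      b' i (g k p) + χ (g k p) * ∑ l, w.2 l * u l i (g k p) = 0}
  have hBad : ∀ k i m, dimH (Bad k i m) ≤ (2 + (2 * M + 2 * M) : ℕ) := by
    intro k i m
    refine dimH_piece m (D k i m) (fun p => b i (g k p)) (fun p => b' i (g k p))
      (fun p => χ (g k p)) (fun l p => u l i (g k p)) ?_ ?_ ?_ ?_ ?_ ?_
    · exact fun p hp => contDiffAt_of_sm (hg k p hp.1) (hb.smooth i _ hp.2.1 hp.2.2.1)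
    · exact fun p hp => contDiffAt_of_sm (hg k p hp.1) (hb'.smooth i _ hp.2.1 hp.2.2.1)
    · exact fun p hp => contDiffAt_of_sm (hg k p hp.1) (hχ _ hp.2.1)
    · exact fun l p hp => contDiffAt_of_sm (hg k p hp.1) ((hu l).smooth i _ hp.2.1 hp.2.2.1)
    · exact fun p hp => hp.2.2.2.1
    · exact fun p hp => hp.2.2.2.2
  have hU : dimH (⋃ k : ℕ, ⋃ i : t, ⋃ m : Fin (M + 1), Bad k i m) <
      Module.finrank ℝ ((Fin (M + 1) → ℂ) × (Fin (M + 1) → ℂ)) := by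
    rw [finrank_two]
    refine lt_of_le_of_lt (b := ((2 + (2 * M + 2 * M) : ℕ) : ENNReal)) ?_ (by
      exact_mod_cast (by omega : 2 + (2 * M + 2 * M) < 2 * (M + 1) + 2 * (M + 1)))
    simp only [dimH_iUnion]
    exact iSup_le fun k => iSup_le fun i => iSup_le fun m => hBad k i m
  obtain ⟨⟨w, w'⟩, hw⟩ := (dense_compl_of_dimH_lt_finrank hU).nonempty
  refine ⟨w, w', fun x hx j hj => ?_⟩
  by_contra hcon
  push Not at hcon
  apply hw
  obtain ⟨k, hk⟩ := mem_iUnion.1 (hSg hx)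
  obtain ⟨p, hp, rfl⟩ := hk
  obtain ⟨i, hi, hxi⟩ : ∃ i ∈ t, g k p ∈ P.U i := by
    have := ht (mem_univ (g k p))
    simpa using this
  have hxW := hSW hx
  have hgne : P.g i j (g k p) ≠ 0 := hP.ne_zero i j _ hxi hj
  have tr : ∀ {c : P.ι → X.pt → ℂ} (_ : IsSmSec X W P c) (a : Fin (M + 1) → ℂ),
      c j (g k p) + χ (g k p) * ∑ m, a m * u m j (g k p) = 0 →
      c i (g k p) + χ (g k p) * ∑ m, a m * u m i (g k p) = 0 := by
    intro c hc a h
    rw [hc.change i j _ hxW hxi hj]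
    have : ∀ m, a m * u m i (g k p) = P.g i j (g k p) * (a m * u m j (g k p)) := by
      intro m
      rw [(hu m).change i j _ hxW hxi hj]
      ring
    simp only [this, ← Finset.mul_sum]
    linear_combination P.g i j (g k p) * h
  have h1 := tr hb w hcon.1
  have h2 := tr hb' w' hcon.2
  have hχ0 : χ (g k p) ≠ 0 := by
    intro h
    rcases h0 _ hx h j hj with h3 | h3
    · exact h3 (by simpa [h] using hcon.1)
    · exact h3 (by simpa [h] using hcon.2)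
  obtain ⟨m, hm⟩ := hu0 _ hxW i hxi
  simp only [mem_iUnion]
  exact ⟨k, ⟨i, hi⟩, m, p, ⟨hp, hxW, hxi, hχ0, hm⟩, h1, h2⟩

end Vale.Agent.P277
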