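import Mathlib.Topology.UrysohnsLemma
import Mathlib.Topology.Compactness.Compact
import Mathlib.Analysis.Real.Cardinality
import Mathlib.Analysis.SpecialFunctions.SmoothTransition

/-!
# P277, package F: disjoint neighbourhoods of countable compact sets, profiles
-/

open Set Filter
open scoped Topology ContDiff

noncomputable section

namespace Vale.Agent.P277

theorem exists_nhd_frontier {T : Type*} [TopologicalSpace T] [CompactSpace T] [T2Space T]
    {K : Set T} (hc : K.Countable) {U : Set T} (hU : IsOpen U) {x : T} (hx : x ∈ U) :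
    ∃ V : Set T, IsOpen V ∧ x ∈ V ∧ closure V ⊆ U ∧ Disjoint (frontier V) K := by
  obtain ⟨f, hf0, hf1, hf⟩ := exists_continuous_zero_one_of_isClosed (isClosed_singleton (x := x))
    hU.isClosed_compl (by simpa using hx)
  have h1 : (f '' K).Countable := hc.image f
  obtain ⟨r, hr, hrK⟩ : ∃ r ∈ Ioo (0 : ℝ) 1, r ∉ f '' K := by
    by_contra hcon
    push Not at hcon
    have h2 : (Ioo (0 : ℝ) 1).Countable := h1.mono hcon
    rw [Cardinal.Real.Ioo_countable_iff] at h2
    norm_num at h2
  refine ⟨{y | f y < r}, isOpen_lt f.continuous continuous_const, ?_, ?_, ?_⟩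
  · show f x < r
    rw [hf0 (mem_singleton x)]
    exact hr.1
  · intro y hy
    have h2 : f y ≤ r := closure_lt_subset_le f.continuous continuous_const hy
    by_contra hyU
    have h3 : f y = 1 := hf1 hyU
    linarith [hr.2]
  · rw [Set.disjoint_left]
    intro y hy hyK
    have h2 : f y = r := frontier_lt_subset_eq f.continuous continuous_const hy
    exact hrK ⟨y, hyK, h2⟩

/-- A countable compact set is covered by finitely many disjoint small open sets. -/
theorem exists_disjoint_cover {T : Type*} [TopologicalSpace T] [CompactSpace T] [T2Space T]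
    {K : Set T} (hK : IsClosed K) (hc : K.Countable) (U : T → Set T)
    (hU : ∀ x ∈ K, IsOpen (U x) ∧ x ∈ U x) :
    ∃ (n : ℕ) (c : Fin n → T) (V : Fin n → Set T), (∀ a, c a ∈ K) ∧ (∀ a, IsOpen (V a)) ∧
      (∀ a, V a ⊆ U (c a)) ∧ (∀ a b, a ≠ b → Disjoint (V a) (V b)) ∧ K ⊆ ⋃ a, V a := by
  classical
  have h1 : ∀ x : K, ∃ V : Set T, IsOpen V ∧ (x : T) ∈ V ∧ closure V ⊆ U x ∧
      Disjoint (frontier V) K := fun x => exists_nhd_frontier hc (hU x x.2).1 (hU x x.2).2
  choose W hW1 hW2 hW3 hW4 using h1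
  obtain ⟨t, ht⟩ := hK.isCompact.elim_finite_subcover W hW1
    (fun x hx => mem_iUnion.2 ⟨⟨x, hx⟩, hW2 _⟩)
  set n := t.card
  set e : Fin n ≃ t := (t.equivFin).symm
  refine ⟨n, fun a => (e a : K), fun a => W (e a) \ ⋃ b : Fin n, ⋃ _ : b < a, closure (W (e b)),
    fun a => (e a : K).2, ?_, ?_, ?_, ?_⟩
  · intro a
    refine (hW1 _).sdiff ?_
    exact isClosed_iUnion_of_finite fun b => isClosed_iUnion_of_finite fun _ => isClosed_closure
  · exact fun a => sdiff_subset.trans (subset_closure.trans (hW3 _))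
  · have key : ∀ a b : Fin n, a < b →
        Disjoint (W (e a) \ ⋃ c : Fin n, ⋃ _ : c < a, closure (W (e c)))
          (W (e b) \ ⋃ c : Fin n, ⋃ _ : c < b, closure (W (e c))) := by
      intro a b hab
      rw [Set.disjoint_left]
      rintro y ⟨hy1, -⟩ ⟨-, hy2⟩
      apply hy2
      simp only [mem_iUnion]
      exact ⟨a, hab, subset_closure hy1⟩
    intro a b hab
    rcases lt_or_gt_of_ne hab with h | h
    · exact key a b h
    · exact (key b a h).symm
  · intro y hy
    have h2 : ∃ a : Fin n, y ∈ W (e a) := by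
      have := ht hy
      simp only [mem_iUnion] at this
      obtain ⟨x, hx, hyx⟩ := this
      refine ⟨e.symm ⟨x, hx⟩, ?_⟩
      simpa using hyx
    obtain ⟨a, ha, hmin⟩ : ∃ a : Fin n, y ∈ W (e a) ∧ ∀ b < a, y ∉ W (e b) := by
      have hne : (Finset.univ.filter fun a : Fin n => y ∈ W (e a)).Nonempty := by
        obtain ⟨a, ha⟩ := h2
        exact ⟨a, by simpa using ha⟩
      refine ⟨_, (Finset.mem_filter.1 (Finset.min'_mem _ hne)).2, fun b hb hyb => ?_⟩
      exact absurd (Finset.min'_le _ b (by simpa using hyb)) (not_le.2 hb)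
    refine mem_iUnion.2 ⟨a, ha, ?_⟩
    simp only [mem_iUnion, not_exists]
    intro b hb hyb
    have h3 : y ∈ frontier (W (e b)) := by
      rw [(hW1 _).frontier_eq]
      exact ⟨hyb, hmin b hb⟩
    exact Set.disjoint_left.1 (hW4 _) h3 hy

/-- A closed set has a closed neighbourhood inside a given open neighbourhood. -/
theorem exists_closed_nhd {T : Type*} [TopologicalSpace T] [NormalSpace T] {K U : Set T}
    (hK : IsClosed K) (hU : IsOpen U) (h : K ⊆ U) :
    ∃ N : Set T, IsClosed N ∧ K ⊆ interior N ∧ N ⊆ U := by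
  obtain ⟨V, hV1, hV2, hV3⟩ := normal_exists_closure_subset hK hU h
  exact ⟨closure V, isClosed_closure, hV2.trans (interior_maximal subset_closure hV1), hV3⟩

end Vale.Agent.P277
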