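import Vale.Agent.P277.A.Smooth
import Vale.Agent.P277.H60.Iface
import Vale.Agent.P277.F.GP
import Vale.Agent.P277.F.Top

/-!
# P277, package F1-F3: the smooth pairs of sections
-/

open scoped Manifold ContDiff Topology
open Vale.Agent.P272.K Vale.Agent.P285.H281.FD Set Filter

noncomputable section

namespace Vale.Agent.P277

section sections

variable {X : CSp} {P : Bd X.pt} {V W : Set X.pt}

theorem IsSmSec.lin {M : ℕ} {u : Fin M → P.ι → X.pt → ℂ} (hu : ∀ m, IsSmSec X V P (u m))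
    (w : Fin M → ℂ) : IsSmSec X V P (fun i x => ∑ m, w m * u m i x) :=
  ⟨fun i x hx hi => Sm.sum _ fun m _ => (sm_const _ _).mul ((hu m).smooth i x hx hi),
    fun i j x hx hi hj => by
      show ∑ m, w m * u m i x = _
      rw [Finset.mul_sum]
      refine Finset.sum_congr rfl fun m _ => ?_
      rw [(hu m).change i j x hx hi hj]; ring⟩

/-- The set of common zeros of two sections over `V` -/
def Zs2 (P : Bd X.pt) (V : Set X.pt) (s s' : P.ι → X.pt → ℂ) : Set X.pt :=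
  {x | x ∈ V ∧ ∃ i, x ∈ P.U i ∧ s i x = 0 ∧ s' i x = 0}

theorem zs2_iff {s s' : P.ι → X.pt → ℂ}
    (h : ∀ i j, ∀ x ∈ V, x ∈ P.U i → x ∈ P.U j → s i x = P.g i j x * s j x)
    (h' : ∀ i j, ∀ x ∈ V, x ∈ P.U i → x ∈ P.U j → s' i x = P.g i j x * s' j x) {x : X.pt}
    (hx : x ∈ V) {i : P.ι} (hi : x ∈ P.U i) : x ∈ Zs2 P V s s' ↔ s i x = 0 ∧ s' i x = 0 := by
  constructor
  · rintro ⟨-, j, hj, h1, h2⟩
    rw [h i j x hx hi hj, h' i j x hx hi hj, h1, h2]
    simp
  · exact fun h1 => ⟨hx, i, hi, h1⟩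

theorem inter_Zs_eq {s s' : P.ι → X.pt → ℂ}
    (h' : ∀ i j, ∀ x ∈ V, x ∈ P.U i → x ∈ P.U j → s' i x = P.g i j x * s' j x) :
    V ∩ Zs P s ∩ Zs P s' = Zs2 P V s s' := by
  ext x
  constructor
  · rintro ⟨⟨hx, i, hi, h1⟩, j, hj, h2⟩
    refine ⟨hx, i, hi, h1, ?_⟩
    rw [h' i j x hx hi hj, h2, mul_zero]
  · rintro ⟨hx, i, hi, h1, h2⟩
    exact ⟨⟨hx, i, hi, h1⟩, i, hi, h2⟩

theorem isClosed_zs2 (hP : IsLBx X P) (hV : IsOpen V) {s s' : P.ι → X.pt → ℂ}
    (h : IsSmSec X V P s) (h' : IsSmSec X V P s') {F : Set X.pt} (hF : IsClosed F) (hFV : F ⊆ V)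
    (hZ : Zs2 P V s s' ⊆ F) : IsClosed (Zs2 P V s s') := by
  refine isClosed_of_closure_subset fun x hx => ?_
  have hxV : x ∈ V := hFV (closure_minimal hZ hF hx)
  obtain ⟨i, hi⟩ := hP.cover x
  rw [zs2_iff h.change h'.change hxV hi]
  by_contra hcon
  have h1 : ∀ᶠ y in 𝓝 x, y ∉ Zs2 P V s s' := by
    have hUV : ∀ᶠ y in 𝓝 x, y ∈ V ∧ y ∈ P.U i :=
      inter_mem (hV.mem_nhds hxV) ((hP.isOpen i).mem_nhds hi)
    rcases not_and_or.1 hcon with hc | hc
    · filter_upwards [hUV, (h.smooth i x hxV hi).continuousAt.eventually_ne hc] with y hy1 hy2 hy3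
      exact hy2 ((zs2_iff h.change h'.change hy1.1 hy1.2).1 hy3).1
    · filter_upwards [hUV, (h'.smooth i x hxV hi).continuousAt.eventually_ne hc] with y hy1 hy2 hy3
      exact hy2 ((zs2_iff h.change h'.change hy1.1 hy1.2).1 hy3).2
  obtain ⟨y, hy1, hy2⟩ := mem_closure_iff_nhds.1 hx _ h1
  exact hy1 hy2

end sections

section pull

variable {Y : Type} [TopologicalSpace Y] [ChartedSpace (Cm 4) Y] {X : CSp} {O : Set Y}
  {v : Y → X.pt}

theorem IsOpenEmb.isCompact_preimage (hv : IsOpenEmb X O v) {K : Set X.pt} (hK : IsClosed K)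
    (hKO : K ⊆ v '' O) : IsCompact (O ∩ v ⁻¹' K) := by
  rcases isEmpty_or_nonempty Y with hY | ⟨⟨y₀⟩⟩
  · rw [Set.eq_empty_of_isEmpty (O ∩ v ⁻¹' K)]
    exact isCompact_empty
  have h1 : (O ∩ v ⁻¹' K) = hv.inv y₀ '' K := by
    ext y
    constructor
    · rintro ⟨hy, hyK⟩
      exact ⟨v y, hyK, hv.inv_apply y₀ hy⟩
    · rintro ⟨x, hx, rfl⟩
      refine ⟨hv.inv_mem y₀ (hKO hx), ?_⟩
      rw [mem_preimage, hv.apply_inv y₀ (hKO hx)]
      exact hx
  rw [h1]
  refine hK.isCompact.image_of_continuousOn fun x hx => ?_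
  obtain ⟨y, hy, rfl⟩ := hKO hx
  exact (hv.inv_continuousAt y₀ hy).continuousWithinAt

theorem IsSmSec.pull (hv : IsOpenEmb X O v) {P : Bd X.pt} {V : Set X.pt} {s : P.ι → X.pt → ℂ}
    (h : IsSmSec X V P s) : SmSec v P (O ∩ v ⁻¹' V) (fun i y => s i (v y)) :=
  ⟨fun i _ hy hi _ he => (h.smooth i _ hy.2 hi).comp_emb hv hy.1 he,
    fun i j y hy hi hj => h.change i j (v y) hy.2 hi hj⟩

omit [TopologicalSpace Y] [ChartedSpace (Cm 4) Y] in
theorem Z2_pull {P : Bd X.pt} {V : Set X.pt} {s s' : P.ι → X.pt → ℂ} :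
    Z2 v P (O ∩ v ⁻¹' V) (fun i y => s i (v y)) (fun i y => s' i (v y)) =
      O ∩ v ⁻¹' (Zs2 P V s s') := by
  ext y
  constructor
  · rintro ⟨⟨hy1, hy2⟩, i, hi, h1, h2⟩
    exact ⟨hy1, hy2, i, hi, h1, h2⟩
  · rintro ⟨hy1, hy2, i, hi, h1, h2⟩
    exact ⟨⟨hy1, hy2⟩, i, hi, h1, h2⟩

end pull

/-- (F1-F3) -/
theorem stF1 : StF1 := by
  intro Y _ _ _ _ _ X O v hv hB P Q G s s' σ σ' x₀ hf
  have hBo : IsClosed (v '' O)ᶜ := hv.isOpen_image.isClosed_compl
  have hP := hf.lbP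
  have hQ := hf.lbQ
  have hs := hf.sec.isSmSec
  have hs' := hf.sec'.isSmSec
  have hσ := hf.secσ.isSmSec
  have hσ' := hf.secσ'.isSmSec
  set Ks := G ∩ Zs Q σ ∩ Zs Q σ' with hKs
  have hKsG : Ks ⊆ G := fun x hx => hx.1.1
  obtain ⟨χ, hχ1, hχ2, hχ3, hχ4⟩ := exists_cutoff hf.closed hf.isOpen hKsG
  obtain ⟨M, u, hu, hu0⟩ := exists_frames hP
  have hχ4' : tsupport (fun x => (χ x : ℂ)) ⊆ G := by
    refine subset_trans ?_ hχ4
    refine closure_mono fun x hx => ?_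
    simpa using hx
  have hc : ∀ x, Sm X (fun y => 1 - (χ y : ℂ)) x := fun x => (sm_const 1 x).sub (hχ1 x)
  obtain ⟨w, w', hw⟩ := general_position hP (W := univ) hB (subset_univ _)
    (hs.smul_of_tsupport (W := univ) (fun x _ => hχ1 x) hχ4') (hs'.smul_of_tsupport (W := univ) (fun x _ => hχ1 x) hχ4') (χ := fun y => 1 - (χ y : ℂ)) (fun x _ => hc x) hu
    (fun x _ i hi => hu0 x i hi) (by
      intro x hx h1 i hi
      have h2 : (χ x : ℂ) = 1 := (sub_eq_zero.1 h1).symm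
      rw [h2, one_mul, one_mul]
      by_contra hcon
      push Not at hcon
      have hxG : x ∈ G := hχ4 (subset_tsupport _ (by
        rw [Function.mem_support]
        intro h
        rw [h] at h2
        simp at h2))
      exact hx (hf.nocommon ⟨⟨hxG, i, hi, hcon.1⟩, i, hi, hcon.2⟩))
  set S : P.ι → X.pt → ℂ := fun i x => (χ x : ℂ) * s i x + (1 - (χ x : ℂ)) * ∑ m, w m * u m i x
  set S' : P.ι → X.pt → ℂ := fun i x => (χ x : ℂ) * s' i x + (1 - (χ x : ℂ)) * ∑ m, w' m * u m i x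
  have hS : IsSmSec X univ P S := (hs.smul_of_tsupport (W := univ) (fun x _ => hχ1 x) hχ4').add ((IsSmSec.lin hu w).smul fun x _ => hc x)
  have hS' : IsSmSec X univ P S' :=
    (hs'.smul_of_tsupport (W := univ) (fun x _ => hχ1 x) hχ4').add ((IsSmSec.lin hu w').smul fun x _ => hc x)
  have hZ : Zs2 P univ S S' ⊆ v '' O := by
    rintro x ⟨-, i, hi, h1, h2⟩
    by_contra hx
    rcases hw x hx i hi with h | h
    · exact h h1
    · exact h h2
  have hZc : IsClosed (Zs2 P univ S S') :=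
    isClosed_zs2 hP isOpen_univ hS hS' isClosed_univ (subset_univ _) (subset_univ _)
  have eO : O ∩ v ⁻¹' (univ : Set X.pt) = O := by simp
  refine ⟨fun i y => S i (v y), fun i y => S' i (v y), ?_, ?_, ?_, ?_, ?_⟩
  · have := hS.pull hv
    rwa [eO] at this
  · have := hS'.pull hv
    rwa [eO] at this
  · have := hv.isCompact_preimage hZc hZ
    rw [← Z2_pull, eO] at this
    exact this
  · refine ⟨G ∩ interior {x | χ x = 1}, inter_subset_left, hf.isOpen.inter isOpen_interior, ?_, ?_⟩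
    · refine subset_inter hKsG ?_
      intro x hx
      rw [mem_interior_iff_mem_nhds]
      exact (hχ3.filter_mono (nhds_le_nhdsSet hx))
    · intro y hy hyG i hi
      have h1 : v y ∈ {x | χ x = 1} := interior_subset hyG.2
      have h1 : χ (v y) = 1 := h1
      simp [S, S', h1]
  · intro C hCO hC
    have hvC : IsCompact (v '' C) := hC.image_of_continuousOn (hv.cont.mono hCO)
    -- modification of the sections `σ, σ'` near the bad points of their zero set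
    obtain ⟨θ, hθ1, hθ2, hθ3, hθ4⟩ := exists_cutoff (K := Ks ∩ (v '' O)ᶜ) (W := G \ v '' C)
      (hf.closed.inter hBo) (hf.isOpen.sdiff hvC.isClosed) (by
        rintro x ⟨hx, hx'⟩
        refine ⟨hKsG hx, fun h => hx' (image_mono hCO h)⟩)
    obtain ⟨M', u', hu', hu0'⟩ := exists_frames hQ
    obtain ⟨z, z', hz⟩ := general_position hQ (W := G) (S := (v '' O)ᶜ ∩ G) (hB.mono inter_subset_left)
      inter_subset_right hσ hσ' (χ := fun x => (θ x : ℂ)) (fun x _ => hθ1 x)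
      (fun m => (hu' m).mono (subset_univ _)) (fun x _ i hi => hu0' x i hi) (by
        rintro x ⟨hx, hxG⟩ h1 i hi
        by_contra hcon
        push Not at hcon
        have h2 : x ∈ Ks ∩ (v '' O)ᶜ := ⟨⟨⟨hxG, i, hi, hcon.1⟩, i, hi, hcon.2⟩, hx⟩
        have h3 : θ x = 1 := (hθ3.filter_mono (nhds_le_nhdsSet h2)).self_of_nhds
        rw [h3] at h1
        simp at h1)
    set τ : Q.ι → X.pt → ℂ := fun i x => σ i x + (θ x : ℂ) * ∑ m, z m * u' m i x
    set τ' : Q.ι → X.pt → ℂ := fun i x => σ' i x + (θ x : ℂ) * ∑ m, z' m * u' m i x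
    have hτ : IsSmSec X G Q τ :=
      hσ.add ((IsSmSec.lin (fun m => (hu' m).mono (subset_univ _)) z).smul fun x _ => hθ1 x)
    have hτ' : IsSmSec X G Q τ' :=
      hσ'.add ((IsSmSec.lin (fun m => (hu' m).mono (subset_univ _)) z').smul fun x _ => hθ1 x)
    have hZF : Zs2 Q G τ τ' ⊆ Ks ∪ tsupport θ := by
      rintro x ⟨hxG, i, hi, h1, h2⟩
      by_cases hx : x ∈ tsupport θ
      · exact Or.inr hx
      · left
        have h0 : θ x = 0 := image_eq_zero_of_notMem_tsupport hx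
        simp only [τ, τ', h0, Complex.ofReal_zero, zero_mul, add_zero] at h1 h2
        exact ⟨⟨hxG, i, hi, h1⟩, i, hi, h2⟩
    have hZτ : IsClosed (Zs2 Q G τ τ') := by
      refine isClosed_zs2 hQ hf.isOpen hτ hτ' (hf.closed.union (isClosed_tsupport θ)) ?_ hZF
      exact union_subset hKsG (hθ4.trans sdiff_subset)
    have hZO : Zs2 Q G τ τ' ⊆ v '' O := by
      rintro x ⟨hxG, i, hi, h1, h2⟩
      by_contra hx
      rcases hz x ⟨hx, hxG⟩ i hi with h | h
      · exact h h1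
      · exact h h2
    refine ⟨fun i y => τ i (v y), fun i y => τ' i (v y), hτ.pull hv, hτ'.pull hv, ?_, ?_⟩
    · rw [Z2_pull]
      exact hv.isCompact_preimage hZτ hZO
    · refine ⟨O ∩ v ⁻¹' (tsupport θ)ᶜ, hv.cont.isOpen_inter_preimage hv.isOpen
        (isClosed_tsupport θ).isOpen_compl, ?_, ?_⟩
      · intro y hy
        exact ⟨hCO hy, fun h => (hθ4 h).2 (mem_image_of_mem v hy)⟩
      · intro y hyW _ _ i _
        have h0 : θ (v y) = 0 := image_eq_zero_of_notMem_tsupport hyW.2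
        simp [τ, τ', h0]

end Vale.Agent.P277
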