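import Vale.Agent.P277.F.Tuple

/-!
# P277, package F4: the theorem
-/

open scoped Manifold ContDiff Topology
open Vale.Agent.P272.K Vale.Agent.P285.H281.FD Set Filter

noncomputable section

namespace Vale.Agent.P277

section

variable {X : CSp} {P : Bd X.pt} {G : Set X.pt}

/-- Extension of a pair of sections given near `Ks`, in general position. -/
theorem exists_ext (hP : IsLBx X P) {B : Set X.pt} (hB : DimLe X 1 B) (hG : IsOpen G)
    {s s' : P.ι → X.pt → ℂ} (hs : IsSmSec X G P s) (hs' : IsSmSec X G P s') {Ks : Set X.pt}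
    (hKs : IsClosed Ks) (hKsG : Ks ⊆ G) (hBs : Disjoint (Zs2 P G s s') B) :
    ∃ (S S' : P.ι → X.pt → ℂ) (W₁ : Set X.pt), IsSmSec X univ P S ∧ IsSmSec X univ P S' ∧
      Disjoint (Zs2 P univ S S') B ∧ IsOpen W₁ ∧ Ks ⊆ W₁ ∧ W₁ ⊆ G ∧
      ∀ x ∈ W₁, ∀ i, S i x = s i x ∧ S' i x = s' i x := by
  obtain ⟨χ, hχ1, hχ2, hχ3, hχ4⟩ := exists_cutoff hKs hG hKsG
  obtain ⟨M, u, hu, hu0⟩ := exists_frames hP
  have hχ4' : tsupport (fun x => (χ x : ℂ)) ⊆ G := by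
    rw [tsupport_ofReal]; exact hχ4
  have hc : ∀ x, Sm X (fun y => 1 - (χ y : ℂ)) x := fun x => (sm_const 1 x).sub (hχ1 x)
  obtain ⟨w, w', hw⟩ := general_position hP (W := univ) hB (subset_univ _)
    (hs.smul_of_tsupport (W := univ) (fun x _ => hχ1 x) hχ4')
    (hs'.smul_of_tsupport (W := univ) (fun x _ => hχ1 x) hχ4')
    (χ := fun y => 1 - (χ y : ℂ)) (fun x _ => hc x) hu
    (fun x _ i hi => hu0 x i hi) (by
      intro x hx h1 i hi
      have h2 : (χ x : ℂ) = 1 := (sub_eq_zero.1 h1).symm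
      rw [h2, one_mul, one_mul]
      by_contra hcon
      push Not at hcon
      have hxG : x ∈ G := hχ4 (subset_tsupport _ (by
        rw [Function.mem_support]
        intro h
        rw [h] at h2
        simp at h2))
      exact Set.disjoint_left.1 hBs ⟨hxG, i, hi, hcon⟩ hx)
  refine ⟨fun i x => (χ x : ℂ) * s i x + (1 - (χ x : ℂ)) * ∑ m, w m * u m i x,
    fun i x => (χ x : ℂ) * s' i x + (1 - (χ x : ℂ)) * ∑ m, w' m * u m i x,
    G ∩ interior {x | χ x = 1}, ?_, ?_, ?_, hG.inter isOpen_interior, ?_, inter_subset_left, ?_⟩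
  · exact (hs.smul_of_tsupport (W := univ) (fun x _ => hχ1 x) hχ4').add
      ((IsSmSec.lin hu w).smul fun x _ => hc x)
  · exact (hs'.smul_of_tsupport (W := univ) (fun x _ => hχ1 x) hχ4').add
      ((IsSmSec.lin hu w').smul fun x _ => hc x)
  · rw [Set.disjoint_left]
    rintro x ⟨-, i, hi, h1, h2⟩ hx
    rcases hw x hx i hi with h | h
    · exact h h1
    · exact h h2
  · refine subset_inter hKsG fun x hx => ?_
    rw [mem_interior_iff_mem_nhds]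
    exact hχ3.filter_mono (nhds_le_nhdsSet hx)
  · intro x hx i
    have h1 : x ∈ {x | χ x = 1} := interior_subset hx.2
    have h1 : χ x = 1 := h1
    simp [h1]

/-- Modification of a pair of sections near its common zeros in `B`. -/
theorem exists_mod (hP : IsLBx X P) {B : Set X.pt} (hB : DimLe X 1 B) (hBc : IsClosed B)
    (hG : IsOpen G) {s s' : P.ι → X.pt → ℂ} (hs : IsSmSec X G P s) (hs' : IsSmSec X G P s')
    (hK : IsClosed (Zs2 P G s s')) {D : Set X.pt} (hD : IsClosed D) (hDB : Disjoint D B) :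
    ∃ (τ τ' : P.ι → X.pt → ℂ) (F : Set X.pt), IsSmSec X G P τ ∧ IsSmSec X G P τ' ∧
      Disjoint (Zs2 P G τ τ') B ∧ IsClosed (Zs2 P G τ τ') ∧ IsClosed F ∧ Disjoint F D ∧
      Zs2 P G τ τ' ⊆ Zs2 P G s s' ∪ F ∧ ∀ x, x ∉ F → ∀ i, τ i x = s i x ∧ τ' i x = s' i x := by
  obtain ⟨θ, hθ1, hθ2, hθ3, hθ4⟩ := exists_cutoff (K := Zs2 P G s s' ∩ B) (W := G \ D)
    (hK.inter hBc) (hG.sdiff hD) (by
      rintro x ⟨hx, hx'⟩
      exact ⟨hx.1, fun h => Set.disjoint_left.1 hDB h hx'⟩)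
  obtain ⟨M', u', hu', hu0'⟩ := exists_frames hP
  obtain ⟨z, z', hz⟩ := general_position hP (W := G) (S := B ∩ G) (hB.mono inter_subset_left)
    inter_subset_right hs hs' (χ := fun x => (θ x : ℂ)) (fun x _ => hθ1 x)
    (fun m => (hu' m).mono (subset_univ _)) (fun x _ i hi => hu0' x i hi) (by
      rintro x ⟨hx, hxG⟩ h1 i hi
      by_contra hcon
      push Not at hcon
      have h2 : x ∈ Zs2 P G s s' ∩ B := ⟨⟨hxG, i, hi, hcon⟩, hx⟩
      have h3 : θ x = 1 := (hθ3.filter_mono (nhds_le_nhdsSet h2)).self_of_nhds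
      rw [h3] at h1
      simp at h1)
  set τ : P.ι → X.pt → ℂ := fun i x => s i x + (θ x : ℂ) * ∑ m, z m * u' m i x
  set τ' : P.ι → X.pt → ℂ := fun i x => s' i x + (θ x : ℂ) * ∑ m, z' m * u' m i x
  have hτ : IsSmSec X G P τ :=
    hs.add ((IsSmSec.lin (fun m => (hu' m).mono (subset_univ _)) z).smul fun x _ => hθ1 x)
  have hτ' : IsSmSec X G P τ' :=
    hs'.add ((IsSmSec.lin (fun m => (hu' m).mono (subset_univ _)) z').smul fun x _ => hθ1 x)
  have hZF : Zs2 P G τ τ' ⊆ Zs2 P G s s' ∪ tsupport θ := by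
    rintro x ⟨hxG, i, hi, h1, h2⟩
    by_cases hx : x ∈ tsupport θ
    · exact Or.inr hx
    · left
      have h0 : θ x = 0 := image_eq_zero_of_notMem_tsupport hx
      simp only [τ, τ', h0, Complex.ofReal_zero, zero_mul, add_zero] at h1 h2
      exact ⟨hxG, i, hi, h1, h2⟩
  refine ⟨τ, τ', tsupport θ, hτ, hτ', ?_, ?_, isClosed_tsupport θ, ?_, hZF, ?_⟩
  · rw [Set.disjoint_left]
    rintro x ⟨hxG, i, hi, h1, h2⟩ hx
    rcases hz x ⟨hx, hxG⟩ i hi with h | h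
    · exact h h1
    · exact h h2
  · exact isClosed_zs2 hP hG hτ hτ' (hK.union (isClosed_tsupport θ))
      (union_subset (fun x hx => hx.1) (hθ4.trans sdiff_subset)) hZF
  · rw [Set.disjoint_left]
    exact fun x hx => (hθ4 hx).2
  · intro x hx i
    have h0 : θ x = 0 := image_eq_zero_of_notMem_tsupport hx
    simp [τ, τ', h0]

end

/-- (F4), for arbitrary `Y`. -/
theorem exists_tuples (Y : Type) [TopologicalSpace Y] [ChartedSpace (Cm 4) Y] (X : CSp)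
    (O : Set Y) (v : Y → X.pt) (hv : IsOpenEmb X O v)
    (hB : DimLe X 1 (v '' O)ᶜ) (P Q : Bd X.pt) (G : Set X.pt) (s s' : P.ι → X.pt → ℂ)
    (σ σ' : Q.ι → X.pt → ℂ) (x₀ : X.pt) (hf : FlipOut X O v P Q G s s' σ σ' x₀) :
    ∃ (n : ℕ) (F : Fin (n + 3) → P.ι → Y → ℂ) (C₀ : Set Y),
      Tup v P O F ∧ C₀ ⊆ O ∧ IsCompact C₀ ∧
      (∀ y ∈ O, y ∉ C₀ → ∀ i, v y ∈ P.U i → ∀ m : Fin (n + 3), 2 ≤ m.val → F m i y = 0) ∧
      ∀ C ⊆ O, IsCompact C → Disjoint (v '' C) (G ∩ Zs Q σ ∩ Zs Q σ') →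
        ∃ (n' : ℕ) (F' : Fin (n' + 3) → Q.ι → Y → ℂ) (C' : Set Y),
          Tup v Q (O ∩ v ⁻¹' G) F' ∧ C' ⊆ O ∩ v ⁻¹' G ∧ IsCompact C' ∧ Disjoint C' C ∧
          (∀ y ∈ O ∩ v ⁻¹' G, y ∉ C' → ∀ i, v y ∈ Q.U i → ∀ m : Fin (n' + 3), 2 ≤ m.val →
            F' m i y = 0) ∧
          (∀ y ∈ C₀ ∩ C', ∃ i j c c', v y ∈ P.U i ∧ v y ∈ Q.U j ∧
            Rad (fun m => F m i) (fun y => s i (v y)) (fun y => s' i (v y)) y c ∧
            Rad (fun m => F' m j) (fun y => σ j (v y)) (fun y => σ' j (v y)) y c') ∧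
          ∃ y₀ ∈ O, v y₀ = x₀ ∧ ∃ i j c c', x₀ ∈ P.U i ∧ x₀ ∈ Q.U j ∧
            Rad (fun m => F m i) (fun y => s i (v y)) (fun y => s' i (v y)) y₀ c ∧
            Rad (fun m => F' m j) (fun y => σ j (v y)) (fun y => σ' j (v y)) y₀ c' ∧
            ∀ W : Set X.pt, IsOpen W → x₀ ∈ W →
              ∃ y ∈ O, v y ∈ W ∩ G ∩ (P.U i ∩ Q.U j) ∧ ∀ e : Chart 4 Y, At e y →
                Jac v ![s i, s' i, σ j, σ' j] e (e y) ≠ 0 := by
  classical
  have hVO : IsOpen (v '' O) := hv.isOpen_image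
  have hBc : IsClosed (v '' O)ᶜ := hVO.isClosed_compl
  have hP := hf.lbP
  have hQ := hf.lbQ
  have hs := hf.sec.isSmSec
  have hs' := hf.sec'.isSmSec
  have hσ := hf.secσ.isSmSec
  have hσ' := hf.secσ'.isSmSec
  have eP : G ∩ Zs P s ∩ Zs P s' = Zs2 P G s s' := inter_Zs_eq hf.sec'.change
  have eQ : G ∩ Zs Q σ ∩ Zs Q σ' = Zs2 Q G σ σ' := inter_Zs_eq hf.secσ'.change
  have hKs : IsClosed (Zs2 Q G σ σ') := eQ ▸ hf.closed
  have hno : Zs2 P G s s' ⊆ v '' O := eP ▸ hf.nocommon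
  have hcount : (Zs2 Q G σ σ' ∩ Zs2 P G s s').Countable := by
    refine hf.count.mono ?_
    rw [← eQ, ← eP]
    exact fun x hx => ⟨hx.1, hx.2.1.2, hx.2.2⟩
  have hx₀Q : x₀ ∈ Zs2 Q G σ σ' := eQ ▸ hf.mem
  have hx₀P : x₀ ∈ Zs2 P G s s' := by
    rw [← eP]
    exact ⟨⟨hx₀Q.1, hf.zero.1⟩, hf.zero.2⟩
  rw [eQ]
  set Ks := Zs2 Q G σ σ'
  have hKsG : Ks ⊆ G := fun x hx => hx.1
  -- the pair `S, S'`
  obtain ⟨S, S', W₁, hS, hS', hSB, hW₁, hKsW, hW₁G, hSs⟩ := exists_ext hP hB hf.isOpen hs hs' hKs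
    hKsG (Set.disjoint_left.2 fun x hx hx' => hx' (hno hx))
  have hZc : IsClosed (Zs2 P univ S S') :=
    isClosed_zs2 hP isOpen_univ hS hS' isClosed_univ (subset_univ _) (subset_univ _)
  set KS := Zs2 P univ S S'
  have hKSO : KS ⊆ v '' O := fun x hx => by
    by_contra h
    exact Set.disjoint_left.1 hSB hx h
  -- the countable compact set
  set K := Ks ∩ Zs2 P G s s'
  have hK1 : K = Ks ∩ KS := by
    ext x
    refine and_congr_right fun hx => ?_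
    obtain ⟨i, hi⟩ := hP.cover x
    rw [zs2_iff hs.change hs'.change (hKsG hx) hi, zs2_iff hS.change hS'.change (mem_univ x) hi,
      (hSs x (hKsW hx) i).1, (hSs x (hKsW hx) i).2]
  have hKc : IsClosed K := hK1 ▸ hKs.inter hZc
  have hKO : K ⊆ v '' O := fun x hx => hno hx.2
  have hx₀K : x₀ ∈ K := ⟨hx₀Q, hx₀P⟩
  -- frames
  obtain ⟨i₀, j₀, hi₀, hj₀, hjac⟩ := hf.jac
  choose i' hi' using hP.cover
  choose j' hj' using hQ.cover
  set ix : X.pt → P.ι := fun x => if x = x₀ then i₀ else i' x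
  set jx : X.pt → Q.ι := fun x => if x = x₀ then j₀ else j' x
  have hix : ∀ x, x ∈ P.U (ix x) := fun x => by
    by_cases h : x = x₀
    · simp only [ix, if_pos h]; rw [h]; exact hi₀
    · simp only [ix, if_neg h]; exact hi' x
  have hjx : ∀ x, x ∈ Q.U (jx x) := fun x => by
    by_cases h : x = x₀
    · simp only [jx, if_pos h]; rw [h]; exact hj₀
    · simp only [jx, if_neg h]; exact hj' x
  set U : X.pt → Set X.pt := fun x => W₁ ∩ v '' O ∩ (P.U (ix x) ∩ Q.U (jx x)) ∩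
    (if x = x₀ then univ else {x₀}ᶜ)
  have hU : ∀ x ∈ K, IsOpen (U x) ∧ x ∈ U x := by
    intro x hx
    refine ⟨((hW₁.inter hVO).inter ((hP.isOpen _).inter (hQ.isOpen _))).inter ?_,
      ⟨⟨hKsW hx.1, hKO hx⟩, hix x, hjx x⟩, ?_⟩
    · split_ifs
      · exact isOpen_univ
      · exact isOpen_compl_singleton
    · split_ifs with h
      · trivial
      · exact h
  obtain ⟨n, c, V, hcK, hVo, hVU, hdis, hKV⟩ := exists_disjoint_cover hKc hcount U hU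
  have hVW : ∀ a, V a ⊆ W₁ := fun a x hx => (hVU a hx).1.1.1
  have hVP : ∀ a, V a ⊆ univ ∩ P.U (ix (c a)) := fun a x hx => ⟨trivial, (hVU a hx).1.2.1⟩
  have hVQ : ∀ a, V a ⊆ G ∩ Q.U (jx (c a)) := fun a x hx => ⟨hW₁G (hVW a hx), (hVU a hx).1.2.2⟩
  have hc0 : ∀ a, x₀ ∈ V a → c a = x₀ := by
    intro a ha
    by_contra h
    have h1 := (hVU a ha).2
    rw [if_neg h] at h1
    exact h1 rfl
  -- cutoffs
  have hKVc : ∀ a, IsClosed (K ∩ V a) := by
    intro a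
    have h1 : K ∩ V a = K ∩ (⋃ b : Fin n, ⋃ _ : b ≠ a, V b)ᶜ := by
      ext x
      refine and_congr_right fun hx => ?_
      simp only [mem_compl_iff, mem_iUnion, not_exists]
      constructor
      · intro h b hb hxb
        exact Set.disjoint_left.1 (hdis b a hb) hxb h
      · intro h
        obtain ⟨b, hb⟩ := mem_iUnion.1 (hKV hx)
        by_cases hba : b = a
        · exact hba ▸ hb
        · exact (h b hba hb).elim
    rw [h1]
    exact hKc.inter (isOpen_iUnion fun b => isOpen_iUnion fun _ => hVo b).isClosed_compl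
  choose χ hχ1 hχ2 hχ3 hχ4 using fun a => exists_cutoff (hKVc a) (hVo a) inter_subset_right
  set G₂ : Set X.pt := ⋃ a, interior {x | χ a x = 1}
  have hG₂o : IsOpen G₂ := isOpen_iUnion fun a => isOpen_interior
  have hχV : ∀ a, {x | χ a x = 1} ⊆ V a := fun a x hx => hχ4 a (subset_tsupport _ (by
    rw [Function.mem_support, show χ a x = 1 from hx]; exact one_ne_zero))
  have hKG₂ : K ⊆ G₂ := by
    intro x hx
    obtain ⟨a, ha⟩ := mem_iUnion.1 (hKV hx)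
    refine mem_iUnion.2 ⟨a, ?_⟩
    rw [mem_interior_iff_mem_nhds]
    exact (hχ3 a).filter_mono (nhds_le_nhdsSet (show x ∈ K ∩ V a from ⟨hx, ha⟩))
  obtain ⟨G₁, hG₁o, hKG₁, hG₁₂⟩ := normal_exists_closure_subset hKc hG₂o hKG₂
  have hG₂V : ∀ x ∈ G₂, ∃ a, x ∈ interior {x | χ a x = 1} ∧ x ∈ V a := by
    intro x hx
    obtain ⟨a, ha⟩ := mem_iUnion.1 hx
    exact ⟨a, ha, hχV a (interior_subset ha)⟩
  have hG₂O : G₂ ⊆ v '' O := fun x hx => by
    obtain ⟨a, -, ha⟩ := hG₂V x hx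
    exact (hVU a ha).1.1.2
  have hG₂W : G₂ ⊆ W₁ := fun x hx => by
    obtain ⟨a, -, ha⟩ := hG₂V x hx
    exact hVW a ha
  -- the neighbourhood `N`
  obtain ⟨N, hNc, hKSN, hNW⟩ := exists_closed_nhd hZc (U := v '' O ∩ (Ks \ G₁)ᶜ)
    (hVO.inter (hKs.sdiff hG₁o).isOpen_compl) (fun x hx => ⟨hKSO hx, fun h => h.2 (hKG₁ (by
      rw [hK1]; exact ⟨h.1, hx⟩))⟩)
  have hNO : N ⊆ v '' O := fun x hx => (hNW hx).1
  have hNK : N ∩ Ks ⊆ G₁ := by
    rintro x ⟨hx, hx'⟩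
    by_contra h
    exact (hNW hx).2 ⟨hx', h⟩
  obtain ⟨m, F, cf, hF0, hF1, hFs, hFn, hFN, hcf1, hcf2, hcf3, hcf4, hFr⟩ := exists_tuple hP hS hS'
    (i := fun a => ix (c a)) hVP hdis hχ1 hχ4 hG₁o hG₁₂ isOpen_interior hZc hKSN
  have eO : O ∩ v ⁻¹' (univ : Set X.pt) = O := by simp
  have hRadP : ∀ a, ∀ y ∈ O, v y ∈ G₁ → v y ∈ interior {x | χ a x = 1} →
      Rad (fun l y => F l (ix (c a)) (v y)) (fun y => s (ix (c a)) (v y))
        (fun y => s' (ix (c a)) (v y)) y cf := by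
    intro a y hy hy1 hya
    refine ⟨hcf1, hcf2, hcf3, hcf4, ?_⟩
    have h1 := (hv.continuousAt hy).eventually (hFr a (v y) hy1 hya)
    have h2 : ∀ᶠ z in 𝓝 y, v z ∈ W₁ := (hv.continuousAt hy).eventually_mem
      (hW₁.mem_nhds (hG₂W (mem_iUnion.2 ⟨a, hya⟩)))
    filter_upwards [h1, h2] with z hz hz'
    have h3 := hSs (v z) hz' (ix (c a))
    refine ⟨by rw [hF0]; exact h3.1, by rw [hF1]; exact h3.2, ?_, fun l hl => hz.2 l hl _⟩
    rw [hz.1, h3.1, h3.2]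
  refine ⟨m, fun l i y => F l i (v y), O ∩ v ⁻¹' N, ?_, inter_subset_left,
    hv.isCompact_preimage hNc hNO, ?_, ?_⟩
  · refine ⟨fun l => ?_, fun y hy i hi => hFn (v y) (mem_univ _) i hi⟩
    have := (hFs l).pull hv
    rwa [eO] at this
  · intro y hy hyN i _ l hl
    exact hFN (v y) (fun h => hyN ⟨hy, show v y ∈ N from interior_subset h⟩) l hl i
  -- the second tuple
  intro C hCO hC hCK
  have hvC : IsClosed (v '' C) := (hC.image_of_continuousOn (hv.cont.mono hCO)).isClosed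
  obtain ⟨τ, τ', E, hτ, hτ', hτB, hτc, hEc, hED, hτE, hτσ⟩ := exists_mod hQ hB hBc hf.isOpen hσ hσ'
    hKs (D := v '' C ∪ N ∪ closure G₁) ((hvC.union hNc).union isClosed_closure) (by
      rw [Set.disjoint_left]
      rintro x ((hx | hx) | hx) hxB
      · exact hxB (image_mono hCO hx)
      · exact hxB (hNO hx)
      · exact hxB (hG₂O (hG₁₂ hx)))
  set Kτ := Zs2 Q G τ τ'
  have hKτO : Kτ ⊆ v '' O := fun x hx => by
    by_contra h
    exact Set.disjoint_left.1 hτB hx h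
  have hKτG : Kτ ⊆ G := fun x hx => hx.1
  have hKτC : Disjoint Kτ (v '' C) := by
    rw [Set.disjoint_left]
    intro x hx hxC
    rcases hτE hx with h | h
    · exact Set.disjoint_left.1 hCK hxC h
    · exact Set.disjoint_left.1 hED h (Or.inl (Or.inl hxC))
  have hKτN : Kτ ∩ N ⊆ G₁ := by
    rintro x ⟨hx, hxN⟩
    rcases hτE hx with h | h
    · exact hNK ⟨hxN, h⟩
    · exact (Set.disjoint_left.1 hED h (Or.inl (Or.inr hxN))).elim
  obtain ⟨N', hN'c, hKN', hN'W⟩ := exists_closed_nhd hτc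
    (U := G ∩ v '' O ∩ ((v '' C)ᶜ ∩ (N \ G₁)ᶜ))
    ((hf.isOpen.inter hVO).inter (hvC.isOpen_compl.inter (hNc.sdiff hG₁o).isOpen_compl))
    (fun x hx => ⟨⟨hKτG hx, hKτO hx⟩, fun h => Set.disjoint_left.1 hKτC hx h,
      fun h => h.2 (hKτN ⟨hx, h.1⟩)⟩)
  obtain ⟨m', F', cf', hF0', hF1', hFs', hFn', hFN', hcf1', hcf2', hcf3', hcf4', hFr'⟩ :=
    exists_tuple hQ hτ hτ' (i := fun a => jx (c a)) hVQ hdis hχ1 hχ4 hG₁o hG₁₂ isOpen_interior
      hτc hKN'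
  have hRadQ : ∀ a, ∀ y ∈ O, v y ∈ G₁ → v y ∈ interior {x | χ a x = 1} →
      Rad (fun l y => F' l (jx (c a)) (v y)) (fun y => σ (jx (c a)) (v y))
        (fun y => σ' (jx (c a)) (v y)) y cf' := by
    intro a y hy hy1 hya
    refine ⟨hcf1', hcf2', hcf3', hcf4', ?_⟩
    have h1 := (hv.continuousAt hy).eventually (hFr' a (v y) hy1 hya)
    have h2 : ∀ᶠ z in 𝓝 y, v z ∈ G₁ := (hv.continuousAt hy).eventually_mem (hG₁o.mem_nhds hy1)
    filter_upwards [h1, h2] with z hz hz'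
    have h3 := hτσ (v z) (fun h => Set.disjoint_left.1 hED h (Or.inr (subset_closure hz')))
      (jx (c a))
    refine ⟨by rw [hF0']; exact h3.1, by rw [hF1']; exact h3.2, ?_, fun l hl => hz.2 l hl _⟩
    rw [hz.1, h3.1, h3.2]
  have hN'O : N' ⊆ v '' O := fun x hx => (hN'W hx).1.2
  refine ⟨m', fun l i y => F' l i (v y), O ∩ v ⁻¹' N', ⟨fun l => (hFs' l).pull hv,
    fun y hy i hi => hFn' (v y) hy.2 i hi⟩, fun y hy => ⟨hy.1, (hN'W hy.2).1.1⟩,
    hv.isCompact_preimage hN'c hN'O, ?_, ?_, ?_, ?_⟩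
  · rw [Set.disjoint_left]
    intro y hy hyC
    exact (hN'W hy.2).2.1 (mem_image_of_mem v hyC)
  · intro y hy hyN i _ l hl
    exact hFN' (v y) (fun h => hyN ⟨hy.1, show v y ∈ N' from interior_subset h⟩) l hl i
  · rintro y ⟨hy, hy'⟩
    have hyG₁ : v y ∈ G₁ := by
      by_contra h
      exact (hN'W hy'.2).2.2 ⟨hy.2, h⟩
    obtain ⟨a, ha, haV⟩ := hG₂V (v y) (hG₁₂ (subset_closure hyG₁))
    exact ⟨ix (c a), jx (c a), cf, cf', (hVP a haV).2, (hVQ a haV).2, hRadP a y hy.1 hyG₁ ha,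
      hRadQ a y hy.1 hyG₁ ha⟩
  · obtain ⟨y₀, hy₀, hvy₀⟩ := hKO hx₀K
    have hyG₁ : v y₀ ∈ G₁ := by rw [hvy₀]; exact hKG₁ hx₀K
    obtain ⟨a, ha, haV⟩ := hG₂V (v y₀) (hG₁₂ (subset_closure hyG₁))
    have hca : c a = x₀ := hc0 a (by rw [← hvy₀]; exact haV)
    have e1 : ix (c a) = i₀ := by simp only [ix, if_pos hca]
    have e2 : jx (c a) = j₀ := by simp only [jx, if_pos hca]
    have r1 := hRadP a y₀ hy₀ hyG₁ ha
    have r2 := hRadQ a y₀ hy₀ hyG₁ ha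
    rw [e1] at r1
    rw [e2] at r2
    exact ⟨y₀, hy₀, hvy₀, i₀, j₀, cf, cf', hi₀, hj₀, r1, r2, hjac⟩

/-- (F4) -/
theorem stF4 : StF4 := by
  intro Y _ _ _ _ _ X O v hv hB P Q G s s' σ σ' x₀ hf
  exact exists_tuples Y X O v hv hB P Q G s s' σ σ' x₀ hf

end Vale.Agent.P277
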