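import Vale.Agent.P277.F.F1
import Vale.Agent.P277.H60.Iface4

/-!
# P277, package F4: tuples of smooth sections without common zeros, radial near given points
-/

open scoped Manifold ContDiff Topology
open Vale.Agent.P272.K Vale.Agent.P285.H281.FD Set Filter

noncomputable section

namespace Vale.Agent.P277

/-- profiles -/
theorem exists_profile {ε : ℝ} (hε : 0 < ε) : ∃ c : ℝ → ℝ, ContDiff ℝ ∞ c ∧ Antitone c ∧
    (∀ t, 0 ≤ c t) ∧ 0 < c 0 ∧ ∀ t, ε ≤ t → c t = 0 := by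
  refine ⟨fun t => expNegInvGlue (ε - t), ?_, ?_, fun t => expNegInvGlue.nonneg _, ?_, ?_⟩
  · exact expNegInvGlue.contDiff.comp (contDiff_const.sub contDiff_id)
  · intro a b hab
    exact expNegInvGlue.monotone (by linarith)
  · exact expNegInvGlue.pos_of_pos (by linarith)
  · intro t ht
    exact expNegInvGlue.zero_of_nonpos (by linarith)

theorem exists_pos_le {T : Type*} [TopologicalSpace T] {K : Set T} (hK : IsCompact K) {f : T → ℝ}
    (hf : ContinuousOn f K) (hp : ∀ x ∈ K, 0 < f x) : ∃ ε > 0, ∀ x ∈ K, ε ≤ f x := by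
  rcases K.eq_empty_or_nonempty with rfl | hne
  · exact ⟨1, one_pos, by simp⟩
  · obtain ⟨x, hx, hm⟩ := hK.exists_isMinOn hne hf
    exact ⟨f x, hp x hx, fun y hy => hm hy⟩

theorem tsupport_ofReal {T : Type*} [TopologicalSpace T] (χ : T → ℝ) :
    tsupport (fun x => (χ x : ℂ)) = tsupport χ := by
  unfold tsupport
  congr 1
  ext x
  simp

section

variable {X : CSp} {P : Bd X.pt} {G : Set X.pt}

/-- the radial section `∑ χ_a c(|S|² + |S'|²) e_a` -/
def rad {n : ℕ} (P : Bd X.pt) (χ : Fin n → X.pt → ℝ) (i : Fin n → P.ι) (c : ℝ → ℝ)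
    (S S' : P.ι → X.pt → ℂ) : P.ι → X.pt → ℂ := fun k x =>
  ∑ a, (χ a x : ℂ) * (((c (‖S (i a) x‖ ^ 2 + ‖S' (i a) x‖ ^ 2) : ℝ) : ℂ) * frame P (i a) k x)

theorem isSmSec_rad (hP : IsLBx X P) {S S' : P.ι → X.pt → ℂ} (hS : IsSmSec X G P S)
    (hS' : IsSmSec X G P S') {n : ℕ} {V : Fin n → Set X.pt} {i : Fin n → P.ι}
    (hV : ∀ a, V a ⊆ G ∩ P.U (i a)) {χ : Fin n → X.pt → ℝ}
    (hχ : ∀ a x, Sm X (fun y => (χ a y : ℂ)) x) (hχV : ∀ a, tsupport (χ a) ⊆ V a) {c : ℝ → ℝ}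
    (hc : ContDiff ℝ ∞ c) : IsSmSec X G P (rad P χ i c S S') := by
  refine IsSmSec.sum _ fun a _ => ?_
  refine IsSmSec.smul_of_tsupport (V := V a) (χ := fun x => (χ a x : ℂ)) ?_ (fun x _ => hχ a x) ?_
  · refine IsSmSec.smul (χ := fun x => ((c (‖S (i a) x‖ ^ 2 + ‖S' (i a) x‖ ^ 2) : ℝ) : ℂ))
      ((isSecx_frame hP (i a)).isSmSec.mono fun x hx => (hV a hx).2) fun x hx => ?_
    have h1 := hV a hx
    refine Sm.real_ofReal (f := fun x => ‖S (i a) x‖ ^ 2 + ‖S' (i a) x‖ ^ 2) ?_ hc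
    exact (hS.smooth _ x h1.1 h1.2).normSq.ofReal_add (hS'.smooth _ x h1.1 h1.2).normSq
  · rw [tsupport_ofReal]
    exact hχV a

/-- near a point where `χ a = 1` -/
theorem rad_eq (S S' : P.ι → X.pt → ℂ) {n : ℕ} {V : Fin n → Set X.pt}
    {i : Fin n → P.ι} (hdis : ∀ a b, a ≠ b → Disjoint (V a) (V b))
    {χ : Fin n → X.pt → ℝ} (hχV : ∀ a, tsupport (χ a) ⊆ V a) (c : ℝ → ℝ) {a : Fin n} {x : X.pt}
    (hx : χ a x = 1) (k : P.ι) : rad P χ i c S S' k x =
      ((c (‖S (i a) x‖ ^ 2 + ‖S' (i a) x‖ ^ 2) : ℝ) : ℂ) * P.g k (i a) x := by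
  have hxV : x ∈ V a := hχV a (subset_tsupport _ (by
    rw [Function.mem_support, hx]; exact one_ne_zero))
  rw [rad, Finset.sum_eq_single a]
  · rw [hx]
    simp [frame]
  · intro b _ hb
    have h1 : χ b x = 0 := by
      refine image_eq_zero_of_notMem_tsupport fun h => ?_
      exact Set.disjoint_left.1 (hdis b a hb) (hχV b h) hxV
    rw [h1]
    simp
  · simp

/-- **The tuple lemma.** -/
theorem exists_tuple (hP : IsLBx X P) {S S' : P.ι → X.pt → ℂ} (hS : IsSmSec X G P S)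
    (hS' : IsSmSec X G P S') {n : ℕ} {V : Fin n → Set X.pt} {i : Fin n → P.ι}
    (hV : ∀ a, V a ⊆ G ∩ P.U (i a)) (hdis : ∀ a b, a ≠ b → Disjoint (V a) (V b))
    {χ : Fin n → X.pt → ℝ} (hχ : ∀ a x, Sm X (fun y => (χ a y : ℂ)) x)
    (hχV : ∀ a, tsupport (χ a) ⊆ V a) {G₁ N : Set X.pt} (hG₁ : IsOpen G₁)
    (hG₂ : closure G₁ ⊆ ⋃ a, interior {x | χ a x = 1}) (hN : IsOpen N)
    (hK : IsClosed (Zs2 P G S S')) (hKN : Zs2 P G S S' ⊆ N) :
    ∃ (m : ℕ) (A : Fin (m + 3) → P.ι → X.pt → ℂ) (c : ℝ → ℝ), A 0 = S ∧ A 1 = S' ∧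
      (∀ l, IsSmSec X G P (A l)) ∧ (∀ x ∈ G, ∀ k, x ∈ P.U k → ∃ l, A l k x ≠ 0) ∧
      (∀ x, x ∉ N → ∀ l : Fin (m + 3), 2 ≤ l.val → ∀ k, A l k x = 0) ∧
      ContDiff ℝ ∞ c ∧ Antitone c ∧ (∀ t, 0 ≤ c t) ∧ 0 < c 0 ∧
      ∀ a, ∀ x ∈ G₁, x ∈ interior {x | χ a x = 1} → ∀ᶠ y in 𝓝 x,
        A 2 (i a) y = ((c (‖S (i a) y‖ ^ 2 + ‖S' (i a) y‖ ^ 2) : ℝ) : ℂ) ∧
        ∀ l : Fin (m + 3), 3 ≤ l.val → ∀ k, A l k y = 0 := by
  classical
  set G₂ : Set X.pt := ⋃ a, interior {x | χ a x = 1} with hG₂def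
  have hG₂o : IsOpen G₂ := isOpen_iUnion fun a => isOpen_interior
  -- the function `t_a`
  have ht : ∀ a, ContinuousOn (fun x => ‖S (i a) x‖ ^ 2 + ‖S' (i a) x‖ ^ 2) (V a) := by
    intro a x hx
    have h1 := hV a hx
    have h2 := (hS.smooth _ x h1.1 h1.2).continuousAt
    have h3 := (hS'.smooth _ x h1.1 h1.2).continuousAt
    exact ((h2.norm.pow 2).add (h3.norm.pow 2)).continuousWithinAt
  have hε : ∀ a, ∃ ε > 0, ∀ x ∈ tsupport (χ a) \ N, ε ≤ ‖S (i a) x‖ ^ 2 + ‖S' (i a) x‖ ^ 2 := by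
    intro a
    refine exists_pos_le ((isClosed_tsupport (χ a)).sdiff hN).isCompact
      ((ht a).mono fun x hx => hχV a hx.1) fun x hx => ?_
    have h1 := hV a (hχV a hx.1)
    by_contra hcon
    have h2 : ‖S (i a) x‖ ^ 2 + ‖S' (i a) x‖ ^ 2 = 0 :=
      le_antisymm (not_lt.1 hcon) (by positivity)
    have h3 : S (i a) x = 0 := by
      have : ‖S (i a) x‖ ^ 2 = 0 := by nlinarith [sq_nonneg ‖S (i a) x‖, sq_nonneg ‖S' (i a) x‖]
      simpa using this
    have h4 : S' (i a) x = 0 := by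
      have : ‖S' (i a) x‖ ^ 2 = 0 := by nlinarith [sq_nonneg ‖S (i a) x‖, sq_nonneg ‖S' (i a) x‖]
      simpa using this
    exact hx.2 (hKN ⟨h1.1, i a, h1.2, h3, h4⟩)
  choose ε hε0 hε1 using hε
  obtain ⟨δ, hδ, hδε⟩ : ∃ δ > 0, ∀ a, δ ≤ ε a := by
    rcases isEmpty_or_nonempty (Fin n) with hn | hn
    · exact ⟨1, one_pos, fun a => (hn.false a).elim⟩
    · refine ⟨Finset.univ.inf' Finset.univ_nonempty ε, ?_, fun a => ?_⟩
      · rw [gt_iff_lt, Finset.lt_inf'_iff]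
        exact fun a _ => hε0 a
      · exact Finset.inf'_le _ (Finset.mem_univ a)
  obtain ⟨c, hc1, hc2, hc3, hc4, hc5⟩ := exists_profile hδ
  -- the other sections
  obtain ⟨M, u, hu, hu0⟩ := exists_frames hP
  obtain ⟨θ, hθ1, hθ2, hθ3, hθ4⟩ := exists_cutoff (K := Zs2 P G S S' \ G₂) (W := N \ closure G₁)
    (hK.sdiff hG₂o) (hN.sdiff isClosed_closure) (fun x hx => ⟨hKN hx.1, fun h => hx.2 (hG₂ h)⟩)
  have hr0 : ∀ x, x ∉ N → ∀ k, rad P χ i c S S' k x = 0 := by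
    intro x hx k
    refine Finset.sum_eq_zero fun a _ => ?_
    by_cases hxa : x ∈ tsupport (χ a)
    · rw [hc5 _ ((hδε a).trans (hε1 a x ⟨hxa, hx⟩))]
      simp
    · rw [image_eq_zero_of_notMem_tsupport hxa]
      simp
  have hu0' : ∀ x, x ∉ N → θ x = 0 := fun x hx =>
    image_eq_zero_of_notMem_tsupport fun h => hx (hθ4 h).1
  refine ⟨M, Fin.cons S (Fin.cons S' (Fin.cons (rad P χ i c S S')
    fun m k x => (θ x : ℂ) * u m k x)), c, rfl, rfl, ?_, ?_, ?_, hc1, hc2, hc3, hc4, ?_⟩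
  · intro l
    refine Fin.cases hS (fun l => ?_) l
    refine Fin.cases hS' (fun l => ?_) l
    refine Fin.cases (isSmSec_rad hP hS hS' hV hχ hχV hc1) (fun l => ?_) l
    exact ((hu l).mono (subset_univ G)).smul (χ := fun x => (θ x : ℂ)) fun x _ => hθ1 x
  · intro x hxG k hk
    by_cases h1 : S k x = 0
    · by_cases h2 : S' k x = 0
      · have hxK : x ∈ Zs2 P G S S' := ⟨hxG, k, hk, h1, h2⟩
        by_cases hx2 : x ∈ G₂
        · obtain ⟨a, ha⟩ := mem_iUnion.1 hx2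
          have ha1 : x ∈ {x | χ a x = 1} := interior_subset ha
          have ha1 : χ a x = 1 := ha1
          have hxV : x ∈ V a := hχV a (subset_tsupport _ (by
            rw [Function.mem_support, ha1]; exact one_ne_zero))
          have hia := (hV a hxV).2
          refine ⟨2, ?_⟩
          show rad P χ i c S S' k x ≠ 0
          rw [rad_eq S S' hdis hχV c ha1]
          have h3 := (zs2_iff hS.change hS'.change hxG hia).1 hxK
          rw [h3.1, h3.2]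
          simp only [norm_zero, ne_eq, OfNat.ofNat_ne_zero, not_false_eq_true, zero_pow, add_zero]
          exact mul_ne_zero (Complex.ofReal_ne_zero.2 hc4.ne') (hP.ne_zero _ _ x hk hia)
        · obtain ⟨m, hm⟩ := hu0 x k hk
          refine ⟨m.succ.succ.succ, ?_⟩
          show (θ x : ℂ) * u m k x ≠ 0
          have h3 : θ x = 1 :=
            (hθ3.filter_mono (nhds_le_nhdsSet (show x ∈ Zs2 P G S S' \ G₂ from ⟨hxK, hx2⟩))).self_of_nhds
          rw [h3]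
          simpa using hm
      · exact ⟨1, h2⟩
    · exact ⟨0, h1⟩
  · intro x hx l
    refine Fin.cases (fun h => absurd h (by simp)) (fun l => ?_) l
    refine Fin.cases (fun h => absurd h (by simp)) (fun l => ?_) l
    refine Fin.cases (fun _ k => hr0 x hx k) (fun l _ k => ?_) l
    show (θ x : ℂ) * u l k x = 0
    rw [hu0' x hx]
    simp
  · intro a x hx1 hxa
    have h1 : ∀ᶠ y in 𝓝 x, y ∈ G₁ := hG₁.mem_nhds hx1
    have h2 : ∀ᶠ y in 𝓝 x, y ∈ interior {x | χ a x = 1} := isOpen_interior.mem_nhds hxa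
    filter_upwards [h1, h2] with y hy1 hy2
    have ha1 : y ∈ {x | χ a x = 1} := interior_subset hy2
    have ha1 : χ a y = 1 := ha1
    have hyV : y ∈ V a := hχV a (subset_tsupport _ (by
      rw [Function.mem_support, ha1]; exact one_ne_zero))
    refine ⟨?_, fun l => ?_⟩
    · show rad P χ i c S S' (i a) y = _
      rw [rad_eq S S' hdis hχV c ha1, hP.g_self (hV a hyV).2, mul_one]
    · refine Fin.cases (fun h => absurd h (by simp)) (fun l => ?_) l
      refine Fin.cases (fun h => absurd h (by simp)) (fun l => ?_) l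
      refine Fin.cases (fun h => absurd h (by rw [Fin.val_succ, Fin.val_succ, Fin.val_zero]; omega))
        (fun l _ k => ?_) l
      show (θ y : ℂ) * u l k y = 0
      have h3 : θ y = 0 := image_eq_zero_of_notMem_tsupport fun h =>
        (hθ4 h).2 (subset_closure hy1)
      rw [h3]
      simp

end

end Vale.Agent.P277
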